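import Mathlib

open MeasureTheory Set

namespace Vale.Agent.P113.H247

/-- space vectors -/
abbrev V := Fin 3 → ℝ

/-- partial derivative -/
noncomputable def pd (i : Fin 3) (F : V → ℝ) (x : V) : ℝ := fderiv ℝ F x (Pi.single i 1)

/-- periodicity -/
def Per (F : V → ℝ) : Prop := ∀ (x : V) (i : Fin 3), F (x + Pi.single i 1) = F x

theorem integral_pd_eq_zero (i : Fin 3) (F : V → ℝ) (hF : ContDiff ℝ 1 F) (hper : Per F) :
    ∫ x in Icc (0:V) 1, pd i F x = 0 := by
  classical
  have hdiff : Differentiable ℝ F := hF.differentiable (by norm_num)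
  have hcont : Continuous (fderiv ℝ F) := hF.continuous_fderiv (by norm_num)
  have h := integral_divergence_of_hasFDerivAt_off_countable' (n := 2) (E := ℝ) (0:V) 1
    (by intro j; simp)
    (fun j => if j = i then F else 0) (fun j => if j = i then fderiv ℝ F else 0) ∅
    countable_empty
    (by intro j; by_cases hj : j = i
        · simp only [hj, if_true]; exact hdiff.continuous.continuousOn
        · simp only [hj, if_false]; exact continuousOn_const)
    (by
      intro x _ j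
      by_cases hj : j = i
      · simp only [hj, if_true]; exact (hdiff x).hasFDerivAt
      · simp only [hj, if_false]; exact hasFDerivAt_const (0:ℝ) x)
    (by
      apply ContinuousOn.integrableOn_compact isCompact_Icc
      apply Continuous.continuousOn
      apply continuous_finsetSum
      intro j _
      by_cases hj : j = i
      · simp only [hj, if_true]; exact hcont.clm_apply continuous_const
      · simp only [hj, if_false]; exact continuous_const)
  have h2 : ∀ x : V, ∑ j : Fin 3, (if j = i then fderiv ℝ F else 0) x (Pi.single j 1) = pd i F x := by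
    intro x
    rw [Finset.sum_eq_single i]
    · simp [pd]
    · intro j _ hj; simp [hj]
    · simp
  simp only [h2] at h
  rw [h]
  apply Finset.sum_eq_zero
  intro j _
  by_cases hj : j = i
  · subst hj
    simp only [if_true]
    rw [sub_eq_zero]
    congr 1
    ext x
    have : (j.insertNth ((1:V) j) x : V) = j.insertNth ((0:V) j) x + Pi.single j 1 := by
      ext k
      refine Fin.succAboveCases j ?_ (fun k' => ?_) k
      · simp
      · simp
    rw [this, hper]
  · simp [hj]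

theorem pd_add (i : Fin 3) {F G : V → ℝ} {x : V} (hF : DifferentiableAt ℝ F x)
    (hG : DifferentiableAt ℝ G x) :
    pd i (fun y => F y + G y) x = pd i F x + pd i G x := by
  simp only [pd]; rw [fderiv_fun_add hF hG]; rfl

theorem pd_mul (i : Fin 3) {F G : V → ℝ} {x : V} (hF : DifferentiableAt ℝ F x)
    (hG : DifferentiableAt ℝ G x) :
    pd i (fun y => F y * G y) x = pd i F x * G x + F x * pd i G x := by
  simp only [pd]; rw [fderiv_fun_mul hF hG]
  simp only [_root_.add_apply, _root_.smul_apply, smul_eq_mul]; ring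

theorem pd_const_mul (i : Fin 3) {F : V → ℝ} {x : V} (c : ℝ) (hF : DifferentiableAt ℝ F x) :
    pd i (fun y => c * F y) x = c * pd i F x := by
  simp only [pd]; rw [fderiv_const_mul hF]; rfl

theorem pd_sub (i : Fin 3) {F G : V → ℝ} {x : V} (hF : DifferentiableAt ℝ F x)
    (hG : DifferentiableAt ℝ G x) :
    pd i (fun y => F y - G y) x = pd i F x - pd i G x := by
  simp only [pd]; rw [fderiv_fun_sub hF hG]; rfl

theorem ContDiff.pd {i : Fin 3} {F : V → ℝ} (hF : ContDiff ℝ 2 F) : ContDiff ℝ 1 (pd i F) := by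
  have h : ContDiff ℝ 1 (fderiv ℝ F) := hF.fderiv_right (by norm_num)
  exact h.clm_apply contDiff_const

theorem continuous_pd {i : Fin 3} {F : V → ℝ} (hF : ContDiff ℝ 1 F) : Continuous (pd i F) :=
  (hF.continuous_fderiv (by norm_num)).clm_apply continuous_const

theorem Per.pd {i : Fin 3} {F : V → ℝ} (hF : Per F) : Per (pd i F) := by
  intro x j
  have h : (fun y => F (y + Pi.single j 1)) = F := by ext y; exact hF y j
  have h2 : fderiv ℝ F (x + Pi.single j 1) = fderiv ℝ (fun y => F (y + Pi.single j 1)) x := by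
    rw [fderiv_comp_add_right]
  unfold Vale.Agent.P113.H247.pd
  rw [h2, h]

/-- the flux vector -/
theorem energy_pointwise (ν : ℝ) (v w u : Fin 3 → V → ℝ) (π : V → ℝ) (g : Fin 3 → V → ℝ) (x : V)
    (hv : ∀ i, ContDiff ℝ 1 (v i)) (hw : ∀ i, ContDiff ℝ 2 (w i)) (hπ : ContDiff ℝ 1 π)
    (hdv : ∑ i, pd i (v i) x = 0) (hdw : ∑ i, pd i (w i) x = 0)
    (hg : ∀ j, g j x = - ∑ i, v i x * pd i (w j) x - ∑ i, w i x * pd i (u j) x - pd j π x
      + ν * ∑ i, pd i (pd i (w j)) x) :
    ∑ j, 2 * w j x * g j x =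
      ∑ i, pd i (fun y => - (v i y * (∑ j, w j y * w j y)) + (-2) * (w i y * π y)
        + 2 * ν * (∑ j, w j y * pd i (w j) y)) x
      - 2 * ν * ∑ i, ∑ j, pd i (w j) x ^ 2 - 2 * ∑ i, ∑ j, w i x * w j x * pd i (u j) x := by
  have hvd : ∀ i, DifferentiableAt ℝ (v i) x := fun i => (hv i).differentiable (by norm_num) x
  have hwd : ∀ i, DifferentiableAt ℝ (w i) x := fun i => (hw i).differentiable (by norm_num) x
  have hπd : DifferentiableAt ℝ π x := hπ.differentiable (by norm_num) x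
  have hpwd : ∀ i j, DifferentiableAt ℝ (pd i (w j)) x :=
    fun i j => (ContDiff.pd (hw j)).differentiable (by norm_num) x
  have hexp : ∀ i, pd i (fun y => - (v i y * (∑ j, w j y * w j y)) + (-2) * (w i y * π y)
        + 2 * ν * (∑ j, w j y * pd i (w j) y)) x =
      - (pd i (v i) x * (∑ j, w j x * w j x) + v i x * (∑ j, 2 * (w j x * pd i (w j) x)))
      + (-2) * (pd i (w i) x * π x + w i x * pd i π x)
      + 2 * ν * (∑ j, (pd i (w j) x * pd i (w j) x + w j x * pd i (pd i (w j)) x)) := by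
    intro i
    have e1 : (fun y => - (v i y * (∑ j, w j y * w j y)) + (-2) * (w i y * π y)
        + 2 * ν * (∑ j, w j y * pd i (w j) y)) =
        (fun y => ((-1) * (v i y * ((w 0 y * w 0 y + w 1 y * w 1 y) + w 2 y * w 2 y)) + (-2) * (w i y * π y))
        + (2 * ν) * ((w 0 y * pd i (w 0) y + w 1 y * pd i (w 1) y) + w 2 y * pd i (w 2) y)) := by
      ext y; simp only [Fin.sum_univ_three]; ring
    rw [e1]
    have d0 : ∀ k, DifferentiableAt ℝ (fun y => w k y * w k y) x := fun k => (hwd k).mul (hwd k)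
    have d1 : DifferentiableAt ℝ (fun y => w 0 y * w 0 y + w 1 y * w 1 y) x := (d0 0).add (d0 1)
    have d2 : DifferentiableAt ℝ (fun y => (w 0 y * w 0 y + w 1 y * w 1 y) + w 2 y * w 2 y) x :=
      d1.add (d0 2)
    have d3 : DifferentiableAt ℝ (fun y => v i y * ((w 0 y * w 0 y + w 1 y * w 1 y) + w 2 y * w 2 y)) x :=
      (hvd i).mul d2
    have d4 : DifferentiableAt ℝ (fun y => w i y * π y) x := (hwd i).mul hπd
    have d5 : ∀ k, DifferentiableAt ℝ (fun y => w k y * pd i (w k) y) x :=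
      fun k => (hwd k).mul (hpwd i k)
    have d6 : DifferentiableAt ℝ (fun y => w 0 y * pd i (w 0) y + w 1 y * pd i (w 1) y) x :=
      (d5 0).add (d5 1)
    have d7 : DifferentiableAt ℝ
        (fun y => (w 0 y * pd i (w 0) y + w 1 y * pd i (w 1) y) + w 2 y * pd i (w 2) y) x :=
      d6.add (d5 2)
    have d8 : DifferentiableAt ℝ (fun y =>
        -1 * (v i y * (w 0 y * w 0 y + w 1 y * w 1 y + w 2 y * w 2 y))) x := d3.const_mul (-1)
    have d9 : DifferentiableAt ℝ (fun y => -2 * (w i y * π y)) x := d4.const_mul (-2)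
    have d10 : DifferentiableAt ℝ (fun y =>
        -1 * (v i y * (w 0 y * w 0 y + w 1 y * w 1 y + w 2 y * w 2 y)) + -2 * (w i y * π y)) x :=
      d8.add d9
    have d11 : DifferentiableAt ℝ (fun y => 2 * ν *
        (w 0 y * pd i (w 0) y + w 1 y * pd i (w 1) y + w 2 y * pd i (w 2) y)) x := d7.const_mul _
    rw [pd_add i d10 d11,
      pd_add i d8 d9, pd_const_mul i _ d3, pd_const_mul i _ d4,
      pd_const_mul i _ d7, pd_mul i (hvd i) d2, pd_add i d1 (d0 2), pd_add i (d0 0) (d0 1),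
      pd_mul i (hwd 0) (hwd 0), pd_mul i (hwd 1) (hwd 1), pd_mul i (hwd 2) (hwd 2),
      pd_mul i (hwd i) hπd, pd_add i d6 (d5 2), pd_add i (d5 0) (d5 1),
      pd_mul i (hwd 0) (hpwd i 0), pd_mul i (hwd 1) (hpwd i 1), pd_mul i (hwd 2) (hpwd i 2)]
    simp only [Fin.sum_univ_three]
    ring
  simp only [hexp, hg]
  simp only [Fin.sum_univ_three] at hdv hdw ⊢
  have e0 : pd 0 (v 0) x = - pd 1 (v 1) x - pd 2 (v 2) x := by linarith
  have e1 : pd 0 (w 0) x = - pd 1 (w 1) x - pd 2 (w 2) x := by linarith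
  rw [e0]
  have key : ∀ a : ℝ, (pd 0 (w 0) x + pd 1 (w 1) x + pd 2 (w 2) x) * a = 0 := by
    intro a; rw [hdw, zero_mul]
  have k1 := key (π x)
  linear_combination 2 * k1

theorem bilin_bound (C : ℝ) (w : Fin 3 → ℝ) (a : Fin 3 → Fin 3 → ℝ) (ha : ∀ i j, |a i j| ≤ C) :
    - 2 * ∑ i, ∑ j, w i * w j * a i j ≤ 6 * C * ∑ j, w j ^ 2 := by
  have hC : 0 ≤ C := (abs_nonneg _).trans (ha 0 0)
  have h1 : ∀ i j, -2 * (w i * w j * a i j) ≤ C * (w i ^ 2 + w j ^ 2) := by
    intro i j
    have h2 : |2 * (w i * w j)| ≤ w i ^ 2 + w j ^ 2 := by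
      rw [abs_le]; constructor <;> nlinarith [sq_nonneg (w i - w j), sq_nonneg (w i + w j)]
    calc -2 * (w i * w j * a i j) ≤ |-2 * (w i * w j * a i j)| := le_abs_self _
      _ = |2 * (w i * w j)| * |a i j| := by rw [← abs_mul, ← abs_neg]; ring_nf
      _ ≤ (w i ^ 2 + w j ^ 2) * C := by
          apply mul_le_mul h2 (ha i j) (abs_nonneg _) (by positivity)
      _ = _ := by ring
  have h3 : - 2 * ∑ i, ∑ j, w i * w j * a i j = ∑ i, ∑ j, -2 * (w i * w j * a i j) := by
    simp only [Finset.mul_sum]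
  rw [h3]
  calc ∑ i, ∑ j, -2 * (w i * w j * a i j) ≤ ∑ i : Fin 3, ∑ j : Fin 3, C * (w i ^ 2 + w j ^ 2) :=
        Finset.sum_le_sum fun i _ => Finset.sum_le_sum fun j _ => h1 i j
    _ = _ := by simp only [Fin.sum_univ_three]; ring

theorem energy_ineq (ν C : ℝ) (hν : 0 ≤ ν) (v w u : Fin 3 → V → ℝ) (π : V → ℝ) (g : Fin 3 → V → ℝ)
    (pv : ∀ i, Per (v i)) (pw : ∀ i, Per (w i)) (pπ : Per π)
    (hv : ∀ i, ContDiff ℝ 1 (v i)) (hw : ∀ i, ContDiff ℝ 2 (w i)) (hπ : ContDiff ℝ 1 π)
    (hdv : ∀ x, ∑ i, pd i (v i) x = 0) (hdw : ∀ x, ∑ i, pd i (w i) x = 0)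
    (hgc : ∀ j, Continuous (g j))
    (hC : ∀ x ∈ Icc (0:V) 1, ∀ i j, |pd i (u j) x| ≤ C)
    (hg : ∀ x, ∀ j, g j x = - ∑ i, v i x * pd i (w j) x - ∑ i, w i x * pd i (u j) x - pd j π x
      + ν * ∑ i, pd i (pd i (w j)) x) :
    ∫ x in Icc (0:V) 1, ∑ j, 2 * w j x * g j x ≤ 6 * C * ∫ x in Icc (0:V) 1, ∑ j, w j x ^ 2 := by
  set G : Fin 3 → V → ℝ := fun i y => - (v i y * (∑ j, w j y * w j y)) + (-2) * (w i y * π y)
        + 2 * ν * (∑ j, w j y * pd i (w j) y) with hG
  have hw1 : ∀ i, ContDiff ℝ 1 (w i) := fun i => (hw i).of_le (by norm_num)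
  have hGc : ∀ i, ContDiff ℝ 1 (G i) := by
    intro i
    simp only [hG]
    refine ContDiff.add (ContDiff.add ?_ ?_) ?_
    · exact ((hv i).mul (ContDiff.sum fun j _ => (hw1 j).mul (hw1 j))).neg
    · exact contDiff_const.mul ((hw1 i).mul hπ)
    · exact contDiff_const.mul (ContDiff.sum fun j _ => (hw1 j).mul (ContDiff.pd (hw j)))
  have hGp : ∀ i, Per (G i) := by
    intro i x k
    simp only [hG]
    simp only [pv i x k, pw _ x k, pπ x k, (pw _).pd x k]
  have hGi : ∀ i, IntegrableOn (pd i (G i)) (Icc (0:V) 1) := fun i =>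
    (continuous_pd (hGc i)).continuousOn.integrableOn_compact isCompact_Icc
  have h0 : ∫ x in Icc (0:V) 1, ∑ i, pd i (G i) x = 0 := by
    rw [integral_finsetSum _ (fun i _ => hGi i)]
    exact Finset.sum_eq_zero fun i _ => integral_pd_eq_zero i _ (hGc i) (hGp i)
  have hle : ∀ x ∈ Icc (0:V) 1, ∑ j, 2 * w j x * g j x ≤ ∑ i, pd i (G i) x + 6 * C * ∑ j, w j x ^ 2 := by
    intro x hx
    rw [energy_pointwise ν v w u π g x hv hw hπ (hdv x) (hdw x) (hg x)]
    have hb := bilin_bound C (fun j => w j x) (fun i j => pd i (u j) x) (hC x hx)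
    have hn : 0 ≤ 2 * ν * ∑ i, ∑ j, pd i (w j) x ^ 2 := by positivity
    simp only [hG]
    linarith
  have hwc : ∀ j, Continuous (w j) := fun j => (hw j).continuous
  have hi1 : IntegrableOn (fun x => ∑ j, 2 * w j x * g j x) (Icc (0:V) 1) := by
    apply Continuous.integrableOn_Icc
    exact continuous_finsetSum _ fun j _ => (continuous_const.mul (hwc j)).mul (hgc j)
  have hi2 : IntegrableOn (fun x => ∑ j, w j x ^ 2) (Icc (0:V) 1) := by
    apply Continuous.integrableOn_Icc
    exact continuous_finsetSum _ fun j _ => (hwc j).pow 2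
  have hi3 : IntegrableOn (fun x => ∑ i, pd i (G i) x) (Icc (0:V) 1) := by
    apply Continuous.integrableOn_Icc
    exact continuous_finsetSum _ fun j _ => continuous_pd (hGc j)
  calc ∫ x in Icc (0:V) 1, ∑ j, 2 * w j x * g j x
      ≤ ∫ x in Icc (0:V) 1, (∑ i, pd i (G i) x + 6 * C * ∑ j, w j x ^ 2) :=
        setIntegral_mono_on hi1 (hi3.add (hi2.const_mul _)) measurableSet_Icc hle
    _ = (∫ x in Icc (0:V) 1, ∑ i, pd i (G i) x) + ∫ x in Icc (0:V) 1, 6 * C * ∑ j, w j x ^ 2 :=
        integral_add hi3 (hi2.const_mul _)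
    _ = _ := by rw [h0, zero_add, integral_const_mul]

end Vale.Agent.P113.H247
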